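import Vale.Agent.P214.MU.Theta

/-!
# P214, block DIM: the ball mass excess is controlled by the smoothed mass excess
-/

open Set Filter Topology MeasureTheory Metric
open scoped RealInnerProductSpace ENNReal NNReal

set_option linter.all false

namespace Vale.Agent.P214.DIM

open Vale.Agent.P214.MU

variable {E : Type*} [NormedAddCommGroup E] [InnerProductSpace ℝ E] [FiniteDimensional ℝ E]
  [MeasurableSpace E] [BorelSpace E]

variable {m : ℕ} {O : Set E} {ν : Measure E} {P : E → E →L[ℝ] E} {x : E} {r : ℝ}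

/-- integrability in the layer cake formula -/
lemma integrable_layer [IsFiniteMeasure ν] (h : LocStat m O ν P) (hr : 0 < r)
    (hball : closedBall x r ⊆ O) :
    IntegrableOn (fun s => (-deriv prof s) * (√s) ^ m * bratio m ν x (r * √s)) (Ioc (0:ℝ) 1) := by
  obtain ⟨C, hC0, hC⟩ := prof_profile.exists_bound
  haveI : IsFiniteMeasure (volume.restrict (Ioc (0:ℝ) 1)) := ⟨by simp⟩
  refine Integrable.mono' (integrable_const (C * 1 * bratio m ν x r)) ?_ ?_
  · have hm : Monotone fun t : ℝ => ν.real (ball x t) := fun a b hab =>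
      measureReal_mono (ball_subset_ball hab)
    have h2 : Measurable fun s : ℝ => bratio m ν x (r * √s) := by
      unfold bratio
      refine Measurable.div (hm.measurable.comp (by fun_prop)) (by fun_prop)
    exact (((prof_profile.continuous_deriv.measurable.neg).mul (by fun_prop)).mul
      h2).aestronglyMeasurable
  · refine (ae_restrict_iff' measurableSet_Ioc).2 (Eventually.of_forall fun s hs => ?_)
    have hs0 : 0 < √s := Real.sqrt_pos.2 hs.1
    have hs1 : √s ≤ 1 := Real.sqrt_le_one.2 hs.2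
    have h3 : r * √s ≤ r := by nlinarith
    have h4 : 0 < r * √s := mul_pos hr hs0
    have h5 : bratio m ν x (r * √s) ≤ bratio m ν x r := h.bratio_mono h4 h3 hball
    have h6 : 0 ≤ bratio m ν x (r * √s) := bratio_nonneg h4.le
    rw [norm_mul, norm_mul, norm_neg, Real.norm_of_nonneg h6,
      Real.norm_of_nonneg (by positivity : (0:ℝ) ≤ √s ^ m)]
    have h7 : ‖deriv prof s‖ ≤ C := hC s hs.1.le
    have h8 : √s ^ m ≤ 1 := pow_le_one₀ hs0.le hs1
    gcongr

/-- the mass excess of balls in terms of the smoothed mass excess -/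
theorem bratio_sub_le [IsFiniteMeasure ν] (h : LocStat m O ν P) (hr : 0 < r)
    (hball : closedBall x (2 * r) ⊆ O) :
    bratio m ν x r - om m * theta m ν x
      ≤ 4 * 2 ^ m * (ratio m ν x (2 * r) - cg m * theta m ν x) := by
  set θ := theta m ν x with hθ
  have h2r : 0 < 2 * r := by positivity
  have e1 : ratio m ν x (2 * r) = ∫ s in Ioc (0:ℝ) 1, (-deriv prof s) * (√s) ^ m *
      bratio m ν x (2 * r * √s) := kratio_eq prof_profile h2r
  have e2 : cg m * θ = ∫ s in Ioc (0:ℝ) 1, (-deriv prof s) * (√s) ^ m * (om m * θ) := by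
    rw [integral_mul_const, cg_eq]
    unfold cphi; ring
  have hi1 := integrable_layer (x := x) h h2r hball
  haveI : IsFiniteMeasure (volume.restrict (Ioc (0:ℝ) 1)) := ⟨by simp⟩
  have hi2 : IntegrableOn (fun s => (-deriv prof s) * (√s) ^ m * (om m * θ)) (Ioc (0:ℝ) 1) := by
    have hc : Continuous fun s => (-deriv prof s) * (√s) ^ m * (om m * θ) := by
      have := prof_profile.continuous_deriv
      fun_prop
    exact (hc.integrableOn_Icc (a := 0) (b := 1)).mono_set Ioc_subset_Icc_self
  set f : ℝ → ℝ := fun s => (-deriv prof s) * (√s) ^ m * (bratio m ν x (2 * r * √s) - om m * θ)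
    with hf
  have e3 : ratio m ν x (2 * r) - cg m * θ = ∫ s in Ioc (0:ℝ) 1, f s := by
    rw [e1, e2, ← integral_sub hi1 hi2]
    refine setIntegral_congr_fun measurableSet_Ioc fun s _ => ?_
    simp only [hf]; ring
  have hif : IntegrableOn f (Ioc (0:ℝ) 1) := by
    refine (hi1.sub hi2).congr (Eventually.of_forall fun s => ?_)
    simp only [hf, Pi.sub_apply]; ring
  have hder : ∀ s, -deriv prof s = dprof s := fun s => by
    rw [(hasDerivAt_prof s).deriv]; ring
  have hnn : ∀ s ∈ Ioc (0:ℝ) 1, 0 ≤ f s := by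
    intro s hs
    have hs0 : 0 < √s := Real.sqrt_pos.2 hs.1
    have hs1 : √s ≤ 1 := Real.sqrt_le_one.2 hs.2
    have h4 : 0 < 2 * r * √s := mul_pos h2r hs0
    have h5 : om m * θ ≤ bratio m ν x (2 * r * √s) := by
      refine h.le_bratio h4 ((ball_subset_closedBall).trans
        ((closedBall_subset_closedBall ?_).trans hball))
      nlinarith
    have h6 : 0 ≤ -deriv prof s := by rw [hder]; exact dprof_nonneg s
    simp only [hf]
    have : 0 ≤ bratio m ν x (2 * r * √s) - om m * θ := by linarith
    positivity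
  have hsub : Icc (1/4:ℝ) (1/2) ⊆ Ioc (0:ℝ) 1 := fun s hs => ⟨by linarith [hs.1], by linarith [hs.2]⟩
  have h1 : ∫ s in Icc (1/4:ℝ) (1/2), f s ≤ ∫ s in Ioc (0:ℝ) 1, f s := by
    refine setIntegral_mono_set hif ?_ (Eventually.of_forall hsub)
    exact (ae_restrict_iff' measurableSet_Ioc).2 (Eventually.of_forall hnn)
  have h2 : ∫ _s in Icc (1/4:ℝ) (1/2), (1 / 2) ^ m * (bratio m ν x r - om m * θ)
      ≤ ∫ s in Icc (1/4:ℝ) (1/2), f s := by
    refine setIntegral_mono_on (continuous_const.integrableOn_Icc) (hif.mono_set hsub) measurableSet_Icc fun s hs => ?_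
    have hs' := hsub hs
    have hs0 : 0 < √s := Real.sqrt_pos.2 hs'.1
    have hs1 : √s ≤ 1 := Real.sqrt_le_one.2 hs'.2
    have h3 : 1 / 2 ≤ √s := by
      refine Real.le_sqrt_of_sq_le ?_
      norm_num
      linarith [hs.1]
    have h4 : bratio m ν x r ≤ bratio m ν x (2 * r * √s) := by
      refine h.bratio_mono hr (by nlinarith) ((closedBall_subset_closedBall ?_).trans hball)
      nlinarith
    have h5 : om m * θ ≤ bratio m ν x r := by
      refine h.le_bratio hr ((ball_subset_closedBall).trans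
        ((closedBall_subset_closedBall (by linarith)).trans hball))
    have h6 : 1 ≤ -deriv prof s := by
      rw [hder]; unfold dprof
      have : 1 - s ≤ max (1 - s) 0 := le_max_left _ _
      linarith [hs.2]
    have h7 : (1 / 2 : ℝ) ^ m ≤ √s ^ m := pow_le_pow_left₀ (by norm_num) h3 m
    have h8 : 0 ≤ bratio m ν x r - om m * θ := by linarith
    simp only [hf]
    calc (1 / 2) ^ m * (bratio m ν x r - om m * θ)
        = 1 * (1 / 2) ^ m * (bratio m ν x r - om m * θ) := by ring
      _ ≤ (-deriv prof s) * √s ^ m * (bratio m ν x (2 * r * √s) - om m * θ) := by gcongr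
  rw [setIntegral_const, smul_eq_mul] at h2
  have e4 : volume.real (Icc (1/4:ℝ) (1/2)) = 1 / 4 := by
    rw [Real.volume_real_Icc_of_le (by norm_num)]; norm_num
  rw [e4] at h2
  have h3 : 1 / 4 * ((1 / 2) ^ m * (bratio m ν x r - om m * θ))
      ≤ ratio m ν x (2 * r) - cg m * θ := by rw [e3]; exact h2.trans h1
  have h4 : (4 * 2 ^ m : ℝ) * (1 / 4 * ((1 / 2) ^ m * (bratio m ν x r - om m * θ)))
      = bratio m ν x r - om m * θ := by
    have : (2:ℝ) ^ m * (1 / 2) ^ m = 1 := by rw [← mul_pow]; norm_num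
    calc _ = (2 ^ m * (1 / 2) ^ m) * (bratio m ν x r - om m * θ) := by ring
      _ = _ := by rw [this, one_mul]
  rw [← h4]
  gcongr

end Vale.Agent.P214.DIM
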