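import Vale.Agent.P214.DIM.Hinf

/-!
# P214, block DIM: power decay of the optimal height gives a unique plane
-/

open Set Filter Topology MeasureTheory Metric
open scoped RealInnerProductSpace ENNReal NNReal

set_option linter.all false

namespace Vale.Agent.P214.DIM

open Vale.Agent.P214.HS

variable {E : Type*} [NormedAddCommGroup E] [InnerProductSpace ℝ E] [FiniteDimensional ℝ E]
  [MeasurableSpace E] [BorelSpace E]

variable {m : ℕ} {O : Set E} {ν : Measure E} {P : E → E →L[ℝ] E} {x : E} {r : ℝ}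
  {T T' : Submodule ℝ E}

/-- two planes of small height at the same scale are close -/
lemma planes_close [IsFiniteMeasure ν] (h : LocStat m O ν P) (hd : DensLow m O ν (cg m))
    (hx : x ∈ ν.support) (hr : 0 < r) (hball : closedBall x r ⊆ O)
    (hT : Module.finrank ℝ T = m) (hT' : Module.finrank ℝ T' = m) :
    ‖T.starProjection - T'.starProjection‖ ^ 2
      ≤ 1024 * 4 ^ m / cg m * (height m ν T x r + height m ν T' x r) := by
  have hcg := cg_pos m
  set K : Set E := closedBall x (r / 4) with hK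
  set D := ‖T.starProjection - T'.starProjection‖ ^ 2 with hD
  have h1 := tiltsq_le_height h hr hball hT
  have h2 := tiltsq_le_height h hr hball hT'
  have hi1 := h.integrableOn_tiltsq T.starProjection K
  have hi2 := h.integrableOn_tiltsq T'.starProjection K
  have h3 : ∫ _y in K, D ∂ν ≤ ∫ y in K, (2 * ‖P y - T.starProjection‖ ^ 2
      + 2 * ‖P y - T'.starProjection‖ ^ 2) ∂ν := by
    refine integral_mono (integrable_const _) ((hi1.const_mul 2).add (hi2.const_mul 2)) fun y => ?_
    have e : T.starProjection - T'.starProjection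
        = (P y - T'.starProjection) - (P y - T.starProjection) := by abel
    have h4 : ‖T.starProjection - T'.starProjection‖
        ≤ ‖P y - T'.starProjection‖ + ‖P y - T.starProjection‖ := by
      rw [e]; exact norm_sub_le _ _
    have h5 := pow_le_pow_left₀ (norm_nonneg _) h4 2
    simp only [hD]
    nlinarith [sq_nonneg (‖P y - T'.starProjection‖ - ‖P y - T.starProjection‖)]
  rw [integral_add (hi1.const_mul 2) (hi2.const_mul 2), integral_const_mul, integral_const_mul,
    setIntegral_const, smul_eq_mul] at h3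
  have h6 : cg m * (r / 4) ^ m ≤ ν.real K := by
    have h7 := h.ratio_ge hd hx (r := r / 4) (by positivity)
      ((closedBall_subset_closedBall (by linarith)).trans hball)
    have h8 := cut_integral_le (ν := ν) (x := x) (r := r / 4) (by positivity)
    unfold ratio at h7
    rw [le_div_iff₀ (by positivity)] at h7
    exact h7.trans (h8.trans (measureReal_mono ball_subset_closedBall))
  have hD0 : 0 ≤ D := sq_nonneg _
  have h9 : cg m * (r / 4) ^ m * D ≤ 1024 * r ^ m * (height m ν T x r + height m ν T' x r) := by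
    calc cg m * (r / 4) ^ m * D ≤ ν.real K * D := by gcongr
      _ ≤ _ := h3
      _ ≤ 2 * (512 * r ^ m * height m ν T x r) + 2 * (512 * r ^ m * height m ν T' x r) := by
          gcongr
      _ = _ := by ring
  have hrm : 0 < r ^ m := by positivity
  rw [div_pow] at h9
  have h10 : D * (cg m * r ^ m / 4 ^ m) ≤ (1024 * 4 ^ m / cg m *
      (height m ν T x r + height m ν T' x r)) * (cg m * r ^ m / 4 ^ m) := by
    calc D * (cg m * r ^ m / 4 ^ m) = cg m * (r ^ m / 4 ^ m) * D := by ring
      _ ≤ _ := h9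
      _ = _ := by field_simp
  exact le_of_mul_le_mul_right h10 (by positivity)

/-- change of plane in the height -/
lemma height_change [IsFiniteMeasure ν] (hr : 0 < r) (T T' : Submodule ℝ E) :
    height m ν T x r ≤ 2 * height m ν T' x r
      + 2 * ‖T.starProjection - T'.starProjection‖ ^ 2 * ratio m ν x r := by
  set D := ‖T.starProjection - T'.starProjection‖ ^ 2 with hD
  have hi1 : Integrable (fun y => cut x r y * hsq T x y) ν := integrable_cut_hsq hr x
  have hi2 : Integrable (fun y => cut x r y * hsq T' x y) ν := integrable_cut_hsq hr x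
  have hi3 : Integrable (fun y => cut x r y) ν :=
    integrable_of_ball (x := x) (continuous_cut x r) hr fun y hy => cut_eq_zero hr hy
  have h1 : wmass ν x (hsq T x) r ≤ 2 * wmass ν x (hsq T' x) r
      + 2 * D * r ^ 2 * ∫ y, cut x r y ∂ν := by
    unfold wmass
    rw [← integral_const_mul, ← integral_const_mul, ← integral_add (hi2.const_mul 2)
      (hi3.const_mul _)]
    refine integral_mono hi1 ((hi2.const_mul 2).add (hi3.const_mul _)) fun y => ?_
    simp only
    have hc := cut_nonneg x r y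
    by_cases hy : r ≤ ‖y - x‖
    · rw [cut_eq_zero hr hy]; simp
    have hyr : ‖y - x‖ ≤ r := (not_le.1 hy).le
    have h2 : hsq T x y ≤ 2 * hsq T' x y + 2 * D * r ^ 2 := by
      unfold hsq
      have e : Tᗮ.starProjection (y - x) = T'ᗮ.starProjection (y - x)
          + (T'.starProjection - T.starProjection) (y - x) := by
        rw [T.starProjection_orthogonal', T'.starProjection_orthogonal']
        simp
      rw [e]
      set a := T'ᗮ.starProjection (y - x)
      set b := (T'.starProjection - T.starProjection) (y - x) with hb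
      have h3 : ‖b‖ ≤ ‖T.starProjection - T'.starProjection‖ * ‖y - x‖ := by
        rw [norm_sub_rev]; exact ContinuousLinearMap.le_opNorm _ _
      have h4 : ‖b‖ ^ 2 ≤ D * r ^ 2 := by
        rw [hD, ← mul_pow]
        exact pow_le_pow_left₀ (norm_nonneg _) (h3.trans (by gcongr)) 2
      have h5 := pow_le_pow_left₀ (norm_nonneg _) (norm_add_le a b) 2
      nlinarith [sq_nonneg (‖a‖ - ‖b‖)]
    calc cut x r y * hsq T x y ≤ cut x r y * (2 * hsq T' x y + 2 * D * r ^ 2) := by gcongr
      _ = _ := by ring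
  unfold height ratio
  have hrm : 0 < r ^ (m + 2) := by positivity
  rw [div_le_iff₀ hrm]
  refine h1.trans (le_of_eq ?_)
  rw [pow_add]
  field_simp

/-- **power decay of the optimal height gives a plane with power decay of the height** -/
theorem exists_plane_of_decay [IsFiniteMeasure ν] (h : LocStat m O ν P)
    (hd : DensLow m O ν (cg m)) (hx : x ∈ ν.support) (hmE : m ≤ Module.finrank ℝ E)
    {r₀ : ℝ} (hr₀ : 0 < r₀) (hball : closedBall x r₀ ⊆ O) {A β M : ℝ} (hA : 0 ≤ A) (hβ : 0 < β)
    (hM : ratio m ν x r₀ ≤ M)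
    (hdec : ∀ r, 0 < r → r ≤ r₀ → hinf m ν x r ≤ A * r ^ β) :
    ∃ T : Submodule ℝ E, Module.finrank ℝ T = m ∧ ∃ C : ℝ, 0 ≤ C ∧
      ∀ r, 0 < r → r ≤ r₀ → height m ν T x r ≤ C * r ^ β := by
  have hcg := cg_pos m
  have hM0 : 0 ≤ M := (ratio_nonneg hr₀).trans hM
  -- dyadic radii
  set q : ℝ := (1 / 2 : ℝ) ^ β with hq
  have hq0 : 0 < q := by positivity
  have hq1 : q < 1 := Real.rpow_lt_one (by norm_num) (by norm_num) hβ
  set a : ℝ := √q with ha
  have ha0 : 0 < a := Real.sqrt_pos.2 hq0
  have haq : a ^ 2 = q := Real.sq_sqrt hq0.le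
  have ha1 : a < 1 := by
    rw [ha, Real.sqrt_lt' one_pos]; simpa using hq1
  set rr : ℕ → ℝ := fun k => r₀ * (1 / 2) ^ k with hrr
  have hrr0 : ∀ k, 0 < rr k := fun k => by rw [hrr]; positivity
  have hrr1 : ∀ k, rr k ≤ r₀ := fun k => by
    rw [hrr]
    exact mul_le_of_le_one_right hr₀.le (pow_le_one₀ (by norm_num) (by norm_num))
  have hrs : ∀ k, rr (k + 1) = rr k / 2 := fun k => by rw [hrr]; simp only [pow_succ]; ring
  have hpow : ∀ k, (rr k) ^ β = r₀ ^ β * q ^ k := fun k => by
    rw [hrr, hq]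
    simp only
    rw [Real.mul_rpow hr₀.le (by positivity), ← Real.rpow_natCast, ← Real.rpow_natCast,
      ← Real.rpow_mul (by norm_num), ← Real.rpow_mul (by norm_num), mul_comm (k:ℝ) β]
  set B : ℝ := (A + 1) * r₀ ^ β with hB
  have hB0 : 0 < B := by positivity
  have hex : ∀ k, ∃ T : Submodule ℝ E, Module.finrank ℝ T = m ∧
      height m ν T x (rr k) < B * q ^ k := by
    intro k
    refine exists_lt_of_hinf_lt hmE ?_
    have h1 := hdec (rr k) (hrr0 k) (hrr1 k)
    rw [hpow] at h1
    have h2 : 0 < r₀ ^ β * q ^ k := by positivity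
    calc hinf m ν x (rr k) ≤ A * (r₀ ^ β * q ^ k) := h1
      _ < B * q ^ k := by rw [hB]; nlinarith
  choose T hT hTh using hex
  set f : ℕ → E →L[ℝ] E := fun k => (T k).starProjection with hf
  -- consecutive planes
  set C₁ : ℝ := 1024 * 4 ^ m / cg m * ((2 ^ (m + 2) + 1) * B) with hC₁
  have hC₁0 : 0 < C₁ := by positivity
  have hstep : ∀ k, dist (f k) (f (k + 1)) ≤ √C₁ * a ^ k := by
    intro k
    have hb1 : closedBall x (rr (k + 1)) ⊆ O :=
      (closedBall_subset_closedBall (hrr1 (k + 1))).trans hball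
    have h1 := planes_close h hd hx (hrr0 (k + 1)) hb1 (hT k) (hT (k + 1))
    have h2 : height m ν (T k) x (rr (k + 1)) ≤ 2 ^ (m + 2) * (B * q ^ k) := by
      have h3 := height_radius (m := m) (ν := ν) (x := x) (T := T k) (r := rr k)
        (s := rr (k + 1)) (hrr0 (k + 1)) (by rw [hrs]; linarith [hrr0 k])
      have h4 : rr k / rr (k + 1) = 2 := by
        rw [hrs]; have := (hrr0 k).ne'; field_simp
      rw [h4] at h3
      exact h3.trans (by gcongr; exact (hTh k).le)
    have h5 : height m ν (T (k + 1)) x (rr (k + 1)) ≤ B * q ^ k := by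
      refine (hTh (k + 1)).le.trans ?_
      have : q ^ (k + 1) ≤ q ^ k := pow_le_pow_of_le_one hq0.le hq1.le (Nat.le_succ k)
      gcongr
    have h6 : ‖(T k).starProjection - (T (k + 1)).starProjection‖ ^ 2 ≤ (√C₁ * a ^ k) ^ 2 := by
      refine h1.trans ?_
      have h7 : (√C₁ * a ^ k) ^ 2 = C₁ * q ^ k := by
        rw [mul_pow, Real.sq_sqrt hC₁0.le, ← haq]; ring
      rw [h7, hC₁]
      calc _ ≤ 1024 * 4 ^ m / cg m * (2 ^ (m + 2) * (B * q ^ k) + B * q ^ k) := by gcongr
        _ = _ := by ring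
    rw [dist_eq_norm]
    exact (pow_le_pow_iff_left₀ (norm_nonneg _) (by positivity) two_ne_zero).1 h6
  have hcauchy : CauchySeq f := cauchySeq_of_le_geometric a (√C₁) ha1 hstep
  obtain ⟨F, hF⟩ := cauchySeq_tendsto_of_complete hcauchy
  obtain ⟨T₀, hT₀, φ, hφ, hlim⟩ := exists_limit_plane T hT
  have hFT : F = T₀.starProjection := tendsto_nhds_unique (hF.comp hφ.tendsto_atTop) hlim
  have hdist : ∀ k, ‖T₀.starProjection - (T k).starProjection‖ ^ 2 ≤ C₁ / (1 - a) ^ 2 * q ^ k := by
    intro k
    have h1 := dist_le_of_le_geometric_of_tendsto a (√C₁) ha1 hstep hF k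
    rw [hFT, dist_eq_norm, norm_sub_rev] at h1
    have h2 := pow_le_pow_left₀ (norm_nonneg _) h1 2
    refine h2.trans (le_of_eq ?_)
    rw [div_pow, mul_pow, Real.sq_sqrt hC₁0.le, ← haq]
    ring
  -- height of the limit plane at dyadic radii
  set C₂ : ℝ := 2 * B + 2 * (C₁ / (1 - a) ^ 2) * M with hC₂
  have h1a : 0 < 1 - a := by linarith
  have hC₂0 : 0 ≤ C₂ := by positivity
  have hdy : ∀ k, height m ν T₀ x (rr k) ≤ C₂ * q ^ k := by
    intro k
    have h1 := height_change (m := m) (ν := ν) (x := x) (hrr0 k) T₀ (T k)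
    have h2 : ratio m ν x (rr k) ≤ M := (h.ratio_mono (hrr0 k) (hrr1 k) hball).trans hM
    have h3 : 0 ≤ ratio m ν x (rr k) := ratio_nonneg (hrr0 k)
    calc height m ν T₀ x (rr k) ≤ _ := h1
      _ ≤ 2 * (B * q ^ k) + 2 * (C₁ / (1 - a) ^ 2 * q ^ k) * M := by
          gcongr
          · exact (hTh k).le
          · exact hdist k
      _ = C₂ * q ^ k := by rw [hC₂]; ring
  -- all radii
  refine ⟨T₀, hT₀, 2 ^ (m + 2) * (C₂ * (2 ^ β / r₀ ^ β)), by positivity, fun r hr hrr₀ => ?_⟩
  obtain ⟨k, hk1, hk2⟩ := exists_nat_pow_near_of_lt_one (x := r / r₀) (y := 1 / 2)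
    (by positivity) (by rw [div_le_one hr₀]; exact hrr₀) (by norm_num) (by norm_num)
  have hr1 : r ≤ rr k := by
    rw [div_le_iff₀ hr₀] at hk2
    rw [hrr]; simp only; linarith
  have hr2 : rr k ≤ 2 * r := by
    rw [lt_div_iff₀ hr₀] at hk1
    rw [hrr]; simp only
    rw [pow_succ] at hk1
    linarith
  have h1 := height_radius (m := m) (ν := ν) (x := x) (T := T₀) (r := rr k) (s := r) hr hr1
  have h2 : rr k / r ≤ 2 := by rw [div_le_iff₀ hr]; exact hr2
  have h3 : 0 ≤ height m ν T₀ x (rr k) := height_nonneg (hrr0 k)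
  have h4 : q ^ k ≤ 2 ^ β / r₀ ^ β * r ^ β := by
    have h5 : (rr k) ^ β ≤ (2 * r) ^ β := Real.rpow_le_rpow (hrr0 k).le hr2 hβ.le
    rw [hpow, Real.mul_rpow (by norm_num) hr.le] at h5
    rw [div_mul_eq_mul_div, le_div_iff₀ (by positivity)]
    linarith
  calc height m ν T₀ x r ≤ (rr k / r) ^ (m + 2) * height m ν T₀ x (rr k) := h1
    _ ≤ 2 ^ (m + 2) * (C₂ * q ^ k) := by
        have := (hrr0 k).le
        gcongr
        exact hdy k
    _ ≤ 2 ^ (m + 2) * (C₂ * (2 ^ β / r₀ ^ β * r ^ β)) := by gcongr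
    _ = _ := by ring

end Vale.Agent.P214.DIM
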