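import Vale.Agent.P214.DIM.H964.PFlat
import Vale.Agent.P214.DIM.H964.Ball
import Vale.Agent.P214.DIM.H964.Conv

/-!
# P214, block DIM: power decay of the optimal height and of the mass excess gives `PowerFlat`
-/

open Set Filter Topology MeasureTheory Metric
open scoped RealInnerProductSpace ENNReal NNReal

set_option linter.all false

namespace Vale.Agent.P214.DIM

open Vale.Agent.P214.HS

variable {E : Type*} [NormedAddCommGroup E] [InnerProductSpace ℝ E] [FiniteDimensional ℝ E]
  [MeasurableSpace E] [BorelSpace E]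

variable {m : ℕ} {U : Set E}

/-- the measure of a disk in a plane -/
lemma real_plane_ball {T : Submodule ℝ E} (hT : Module.finrank ℝ T = m) {r : ℝ} (hr : 0 < r) :
    (μH[m] : Measure E).real ((T : Set E) ∩ ball 0 r) = MU.om m * r ^ m := by
  let b := (stdOrthonormalBasis ℝ T).reindex (finCongr hT)
  let i : EuclideanSpace ℝ (Fin m) → E := fun p => ((b.repr.symm p : T) : E)
  have hi : Isometry i := (isometry_subtype_coe).comp b.repr.symm.isometry
  have hnorm : ∀ p, ‖i p‖ = ‖p‖ := fun p => by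
    have h2 : ‖(b.repr.symm p : T)‖ = ‖p‖ := b.repr.symm.norm_map p
    exact h2
  have himg : (T : Set E) ∩ ball 0 r = i '' ball 0 r := by
    ext y
    constructor
    · rintro ⟨hy, hyr⟩
      have hy' : i (b.repr ⟨y, hy⟩) = y := by simp [i]
      refine ⟨b.repr ⟨y, hy⟩, ?_, hy'⟩
      rw [mem_ball_zero_iff] at hyr ⊢
      rw [← hnorm, hy']
      exact hyr
    · rintro ⟨p, hp, rfl⟩
      refine ⟨(b.repr.symm p : T).2, ?_⟩
      rw [mem_ball_zero_iff] at hp ⊢
      rw [hnorm]
      exact hp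
  rw [himg, measureReal_def, hi.hausdorffMeasure_image (Or.inl (Nat.cast_nonneg m)),
    ← measureReal_def, MU.om_ball m 0 hr]

/-- **Power decay gives a power rate.** -/
theorem powerFlat_of_decay {V : IntegralVarifold m U} (hm : 1 ≤ m) (hU : IsOpen U)
    (hst : V.IsStationary) {x₁ x : E} {R₁ r₀ : ℝ} (hR : closedBall x₁ R₁ ⊆ U) (hx : x ∈ V.spt)
    (hr₀ : 0 < r₀) (hb : closedBall x r₀ ⊆ ball x₁ R₁) {Q : ℕ} (hQ : V.theta x = Q) {A β : ℝ}
    (hA : 0 ≤ A) (hβ : 0 < β)
    (hdec : ∀ r, 0 < r → r ≤ r₀ → hinf m (nu V x₁ R₁) x r ≤ A * r ^ β)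
    (hrat : ∀ r, 0 < r → r ≤ r₀ → ratio m (nu V x₁ R₁) x r - cg m * Q ≤ A * r ^ β) :
    V.PowerFlat x := by
  have hcg := cg_pos m
  have hmE := finrank_le_of_mem_spt V hx
  set ν := nu V x₁ R₁ with hν
  haveI hfin : IsFiniteMeasure ν := V.finite_restrict hR
  have hls : LocStat m (ball x₁ R₁) ν (fun y => proj (V.tangent y)) := V.locStat hst hR
  have hdl : DensLow m (ball x₁ R₁) ν (cg m) := V.densLow (x := x₁) (R := R₁)
  have hxb : x ∈ ball x₁ R₁ := hb (mem_closedBall_self hr₀.le)
  have hxs : x ∈ ν.support := V.mem_support hx hxb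
  have hθ : MU.theta m ν x = Q := by
    have := V.theta_restrict hxb
    rw [hQ] at this
    exact this
  obtain ⟨T, hT, C, hC0, hC⟩ := exists_plane_of_decay hls hdl hxs hmE hr₀ hb hA hβ le_rfl hdec
  have hQ1 : 1 ≤ Q := by
    have h1 := V.one_le_theta hU hst hx
    rw [hQ] at h1
    exact_mod_cast h1
  -- constants
  set K₁ : ℝ := 2 * 4 ^ m / cg m with hK₁
  have hK₁0 : 0 < K₁ := by positivity
  set b : ℝ := min (β / 2) β with hbdef
  set C₁ : ℝ := √(K₁ * 16 * (C * 4 ^ β)) with hC₁
  set C₂ : ℝ := 512 * 4 ^ m * (C * 4 ^ β) with hC₂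
  set C₃ : ℝ := 4 * 2 ^ m * (A * 2 ^ β) with hC₃
  have hC₁0 : 0 ≤ C₁ := Real.sqrt_nonneg _
  have hC₂0 : 0 ≤ C₂ := by positivity
  have hC₃0 : 0 ≤ C₃ := by positivity
  refine ⟨T, Q, β / 2, max C₁ (max C₂ C₃), min (r₀ / 4) 1, hT, hQ1, by positivity,
    lt_min (by positivity) one_pos, fun r hr hrr => ?_⟩
  have hr4 : 4 * r ≤ r₀ := by
    have := hrr.trans (min_le_left _ _)
    linarith
  have hr1 : r ≤ 1 := hrr.trans (min_le_right _ _)
  have h4r : 0 < 4 * r := by positivity
  have hbr : closedBall x (4 * r) ⊆ ball x₁ R₁ := (closedBall_subset_closedBall hr4).trans hb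
  have hH := hC (4 * r) h4r hr4
  have hH0 : 0 ≤ height m ν T x (4 * r) := height_nonneg h4r
  have e4 : (4 * r) ^ β = 4 ^ β * r ^ β := Real.mul_rpow (by norm_num) hr.le
  rw [e4] at hH
  have e44 : 4 * r / 4 = r := by ring
  -- comparison of powers
  have hpow : r ^ β ≤ r ^ (β / 2) := Real.rpow_le_rpow_of_exponent_ge hr hr1 (by linarith)
  have hpm : r ^ ((m:ℝ) + β / 2) = r ^ m * r ^ (β / 2) := by
    rw [Real.rpow_add hr, Real.rpow_natCast]
  refine ⟨?_, ?_, ?_⟩
  · rintro y ⟨hy, hyb⟩
    rw [mem_ball, dist_eq_norm] at hyb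
    have h1 := sup_height hst hR h4r hbr T hy (by rw [e44]; exact hyb.le)
    have h2 : ‖FV.co T (y - x)‖ ^ 2 ≤ (C₁ * r ^ (1 + β / 2)) ^ 2 := by
      refine h1.trans ?_
      have h3 : (C₁ * r ^ (1 + β / 2)) ^ 2 = K₁ * 16 * (C * 4 ^ β) * (r ^ 2 * r ^ β) := by
        rw [mul_pow, hC₁, Real.sq_sqrt (by positivity)]
        congr 1
        rw [Real.rpow_add hr, Real.rpow_one, mul_pow, ← Real.rpow_natCast (r ^ (β / 2)) 2,
          ← Real.rpow_mul hr.le]
        congr 2
        push_cast
        ring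
      rw [h3]
      calc 2 * 4 ^ m / cg m * (4 * r) ^ 2 * height m (nu V x₁ R₁) T x (4 * r)
          ≤ K₁ * (4 * r) ^ 2 * (C * (4 ^ β * r ^ β)) := by
            rw [← hK₁]
            gcongr
        _ = _ := by ring
    have h4 := (pow_le_pow_iff_left₀ (norm_nonneg _) (by positivity) two_ne_zero).1 h2
    calc ‖(y - x) - proj T (y - x)‖ = ‖FV.co T (y - x)‖ := rfl
      _ ≤ C₁ * r ^ (1 + β / 2) := h4
      _ ≤ _ := by gcongr; exact le_max_left _ _
  · have h1 := tiltsq_le_height hls h4r hbr hT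
    rw [e44] at h1
    have hsubR : closedBall x r ⊆ closedBall x₁ R₁ :=
      (closedBall_subset_closedBall (by linarith)).trans (hbr.trans ball_subset_closedBall)
    have h2 : ∫ y in closedBall x r, ‖proj (V.tangent y) - T.starProjection‖ ^ 2 ∂ν
        = ∫ y in closedBall x r, ‖proj (V.tangent y) - proj T‖ ^ 2 ∂V.weight := by
      rw [hν, nu, Measure.restrict_restrict measurableSet_closedBall, inter_eq_left.2 hsubR]
      rfl
    have hint : IntegrableOn (fun y => ‖proj (V.tangent y) - proj T‖ ^ 2) (closedBall x r)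
        V.weight := by
      have h3 := hls.integrableOn_tiltsq (proj T) (closedBall x r)
      unfold IntegrableOn at h3 ⊢
      rwa [hν, nu, Measure.restrict_restrict measurableSet_closedBall, inter_eq_left.2 hsubR] at h3
    calc ∫ y in ball x r, ‖proj (V.tangent y) - proj T‖ ^ 2 ∂V.weight
        ≤ ∫ y in closedBall x r, ‖proj (V.tangent y) - proj T‖ ^ 2 ∂V.weight :=
          setIntegral_mono_set hint (Eventually.of_forall fun y => by
            simp only [Pi.zero_apply]; positivity) (Eventually.of_forall ball_subset_closedBall)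
      _ ≤ 512 * (4 * r) ^ m * height m ν T x (4 * r) := by rw [← h2]; exact h1
      _ ≤ 512 * (4 * r) ^ m * (C * (4 ^ β * r ^ β)) := by gcongr
      _ = C₂ * (r ^ m * r ^ β) := by rw [hC₂, mul_pow]; ring
      _ ≤ max C₁ (max C₂ C₃) * (r ^ m * r ^ (β / 2)) := by
          gcongr
          exact (le_max_left _ _).trans (le_max_right _ _)
      _ = _ := by rw [hpm]
  · have hbU : closedBall x r ⊆ U :=
      (closedBall_subset_closedBall (by linarith)).trans (hbr.trans (ball_subset_closedBall.trans hR))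
    have hb2 : closedBall x (2 * r) ⊆ ball x₁ R₁ :=
      (closedBall_subset_closedBall (by linarith)).trans hbr
    have h1 := bratio_sub_le (x := x) (m := m) hls hr hb2
    rw [hθ] at h1
    have h2 := hrat (2 * r) (by positivity) (by linarith)
    rw [Real.mul_rpow (by norm_num) hr.le] at h2
    have h3 : MU.bratio m ν x r = V.weight.real (ball x r) / r ^ m := by
      unfold MU.bratio
      rw [hν, nu, V.real_restrict]
      exact ball_subset_closedBall.trans ((closedBall_subset_closedBall (by linarith)).trans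
        (hbr.trans ball_subset_closedBall))
    rw [h3] at h1
    have h4 := V.le_ball hst hr hbU
    rw [hQ] at h4
    rw [real_plane_ball hT hr]
    have hrm : 0 < r ^ m := by positivity
    have h5 : V.weight.real (ball x r) - Q * (MU.om m * r ^ m) ≤ C₃ * (r ^ m * r ^ β) := by
      have h6 : V.weight.real (ball x r) / r ^ m - MU.om m * Q ≤ C₃ * r ^ β := by
        refine h1.trans ?_
        calc 4 * 2 ^ m * (ratio m ν x (2 * r) - cg m * Q) ≤ 4 * 2 ^ m * (A * (2 ^ β * r ^ β)) := by
              gcongr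
          _ = _ := by rw [hC₃]; ring
      have h7 : V.weight.real (ball x r) - Q * (MU.om m * r ^ m)
          = (V.weight.real (ball x r) / r ^ m - MU.om m * Q) * r ^ m := by field_simp
      rw [h7]
      calc _ ≤ (C₃ * r ^ β) * r ^ m := by gcongr
        _ = _ := by ring
    have h8 : 0 ≤ V.weight.real (ball x r) - Q * (MU.om m * r ^ m) := by linarith
    rw [abs_of_nonneg h8, hpm]
    calc _ ≤ C₃ * (r ^ m * r ^ β) := h5
      _ ≤ max C₁ (max C₂ C₃) * (r ^ m * r ^ (β / 2)) := by
          gcongr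
          exact (le_max_right _ _).trans (le_max_right _ _)

end Vale.Agent.P214.DIM
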