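import Vale.Agent.P214.Defs

/-!
# P214, block DIM: flatness at a power rate (definition)
-/

open MeasureTheory Set Filter Topology Metric
open scoped ENNReal NNReal

namespace Vale.Agent.P214

variable {E : Type*} [NormedAddCommGroup E] [InnerProductSpace ℝ E] [FiniteDimensional ℝ E]
  [MeasurableSpace E] [BorelSpace E]

variable {m : ℕ} {U : Set E}

/-- `V` is flat at `x` at a power rate: for some `m`-plane `T`, integer `Q ≥ 1` and exponent
`β > 0`, for all small `r`: the support of `V` in `B_r(x)` lies within `C r^(1+β)` of `x + T`, the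
tilt excess of `V` relative to `T` in `B_r(x)` is at most `C r^(m+β)`, and the mass of `B_r(x)` is
within `C r^(m+β)` of `Q` times the `H^m`-measure of an `m`-disk of radius `r`. -/
def IntegralVarifold.PowerFlat (V : IntegralVarifold m U) (x : E) : Prop :=
  ∃ (T : Submodule ℝ E) (Q : ℕ) (β C r₀ : ℝ), Module.finrank ℝ T = m ∧ 1 ≤ Q ∧ 0 < β ∧ 0 < r₀ ∧
    ∀ r, 0 < r → r ≤ r₀ →
      (∀ y ∈ V.spt ∩ ball x r, ‖(y - x) - proj T (y - x)‖ ≤ C * r ^ (1 + β)) ∧
      (∫ y in ball x r, ‖proj (V.tangent y) - proj T‖ ^ 2 ∂V.weight ≤ C * r ^ ((m : ℝ) + β)) ∧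
      |V.weight.real (ball x r) - Q * (μH[m] : Measure E).real ((T : Set E) ∩ ball 0 r)|
        ≤ C * r ^ ((m : ℝ) + β)

end Vale.Agent.P214
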